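import Vale.Agent.P037.Main

/-!
Hand-in for P037: a doubly exponential removal bound for a single ordered binary pattern.
-/

namespace Vale.Agent.Results.P037.DoublyExponential

open Vale.Agent.P037

theorem result : ∀ k : ℕ, ∃ C : ℝ, 0 < C ∧
    ∀ (n : ℕ) (H : Fin k → Fin k → Bool) (A : Fin n → Fin n → Bool) (ε : ℝ),
      1 ≤ n → 0 < ε → ε ≤ 1 → Far H A ε →
      Real.exp (-Real.exp (C * (1 / ε) ^ C)) * (n : ℝ) ^ (2 * k) ≤ (copyCount H A : ℝ) :=
  removal_bound

end Vale.Agent.Results.P037.DoublyExponential
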