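import Mathlib
import Vale.Agent.P037.Refute.Main

/-!
Hand-in for P037: the polynomial ordered binary matrix removal conjecture is false.
-/

namespace Vale.Agent.Results.P037.PolynomialRemovalFails

open Vale.Agent.P037

theorem result :
    (¬ ∀ (k : ℕ) (H : Fin k → Fin k → Bool), ∃ c C : ℝ, 0 < c ∧ 0 < C ∧
      ∀ (n : ℕ) (A : Fin n → Fin n → Bool) (ε : ℝ), 1 ≤ n → 0 < ε → ε < 1 → Far H A ε →
        c * ε ^ C * (n : ℝ) ^ (2 * k) ≤ (copyCount H A : ℝ)) ∧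
    ∃ H : Fin 5 → Fin 5 → Bool, ∀ L : ℕ, 1 ≤ L →
      ∃ (n : ℕ) (A : Fin n → Fin n → Bool), 1 ≤ n ∧
        Far H A (1 / (64 * ((L : ℝ) + 1) ^ 4)) ∧
        (copyCount H A : ℝ) ≤ 100 / 2 ^ L * (n : ℝ) ^ 10 := by
  obtain ⟨H, hmain, hneg⟩ := Refute.removal_fails
  refine ⟨fun hall => ?_, H, hmain⟩
  obtain ⟨c, C, hc, -, h⟩ := hall 5 H
  obtain ⟨n, A, ε, hn, h0, h1, hfar, hlt⟩ := hneg c C hc
  exact absurd (h n A ε hn h0 h1 hfar) (not_le.2 hlt)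

end Vale.Agent.Results.P037.PolynomialRemovalFails
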